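import Vale.Agent.P062.Game
import Mathlib.Data.Nat.Bitwise
import Mathlib.Tactic.Ring

/-!
# Certificates for Maker

A node carries a pair of bit sets M, U of board indices, M inside U: Maker, to move and
owning the cells of `M`, wins against every finite set of Breaker cells that misses `U`.
-/

namespace Vale.Agent.P062

/-- Width of the indexed window. -/
def width : ℕ := 19

/-- Offset of the indexed window. -/
def offs : ℤ := 9

/-- The cell with a given index. -/
def cellOf (i : ℕ) : Cell := (((i / width : ℕ) : ℤ) - offs, ((i % width : ℕ) : ℤ) - offs)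

theorem cellOf_injective : Function.Injective cellOf := by
  intro a b h
  simp only [cellOf, Prod.mk.injEq, sub_left_inj, Nat.cast_inj] at h
  rw [← Nat.mod_add_div a width, h.1, h.2, Nat.mod_add_div]

/-- The index of a cell of the window. -/
def indexOf (c : Cell) : ℕ := width * (c.1 + offs).toNat + (c.2 + offs).toNat

/-- The cells of a bit set. -/
def cells (S : ℕ) : Finset Cell :=
  ((Finset.range (S.log2 + 1)).filter fun i => S.testBit i = true).image cellOf

theorem mem_cells {S : ℕ} {x : Cell} :
    x ∈ cells S ↔ ∃ i, S.testBit i = true ∧ cellOf i = x := by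
  simp only [cells, Finset.mem_image, Finset.mem_filter, Finset.mem_range]
  constructor
  · rintro ⟨i, ⟨_, h⟩, rfl⟩
    exact ⟨i, h, rfl⟩
  · rintro ⟨i, h, rfl⟩
    have hS : S ≠ 0 := by
      rintro rfl
      simp at h
    exact ⟨i, ⟨Nat.lt_succ_of_le ((Nat.le_log2 hS).2 (Nat.ge_two_pow_of_testBit h)), h⟩, rfl⟩

@[simp] theorem cellOf_mem_cells {S i : ℕ} : cellOf i ∈ cells S ↔ S.testBit i = true := by
  rw [mem_cells]
  exact ⟨fun ⟨j, hj, e⟩ => cellOf_injective e ▸ hj, fun h => ⟨i, h, rfl⟩⟩

theorem cells_zero : cells 0 = ∅ := by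
  ext x
  simp [mem_cells]

theorem cells_or (S T : ℕ) : cells (S ||| T) = cells S ∪ cells T := by
  ext x
  simp [mem_cells, or_and_right, exists_or]

/-- `bit m`. -/
def bit (m : ℕ) : ℕ := 2 ^ m

theorem cells_bit (m : ℕ) : cells (bit m) = {cellOf m} := by
  ext x
  simp [mem_cells, bit, Nat.testBit_two_pow, eq_comm]

/-- Clear bit `m`. -/
def clear (S m : ℕ) : ℕ := (S ||| bit m) ^^^ bit m

theorem testBit_clear (S m i : ℕ) :
    (clear S m).testBit i = (S.testBit i && !decide (m = i)) := by
  simp only [clear, bit, Nat.testBit_xor, Nat.testBit_lor, Nat.testBit_two_pow]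
  cases S.testBit i <;> cases decide (m = i) <;> rfl

theorem cells_subset {S T : ℕ} (h : S ||| T = T) : cells S ⊆ cells T := by
  rw [← h, cells_or]
  exact Finset.subset_union_left

/-- The meaning of a verified node. -/
def Good (e : ℕ × ℕ) : Prop :=
  cells e.1 ⊆ cells e.2 ∧ ∀ B : Finset Cell, Disjoint (cells e.2) B → Wins (cells e.1) B

/-- The six cells of the copy with anchor index `a` and symmetry number `s`. -/
def copyCells (a s : ℕ) : List Cell :=
  snaky.map fun c => cellOf a + rot (s.testBit 0) (s.testBit 1) (s.testBit 2) c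

/-- The bit set of a copy, if it lies in the window. -/
def copyMask (a s : ℕ) : Option ℕ :=
  if (copyCells a s).all fun c => decide (cellOf (indexOf c) = c) then
    some ((copyCells a s).foldr (fun c S => bit (indexOf c) ||| S) 0)
  else none

theorem mem_cells_foldr (l : List Cell) (h : ∀ c ∈ l, cellOf (indexOf c) = c) {x : Cell}
    (hx : x ∈ l) : x ∈ cells (l.foldr (fun c S => bit (indexOf c) ||| S) 0) := by
  induction l with
  | nil => simp at hx
  | cons a l ih =>
    rw [List.foldr_cons, cells_or, cells_bit, h a (by simp)]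
    rcases List.mem_cons.mp hx with rfl | hx
    · simp
    · exact Finset.mem_union_right _ (ih (fun c hc => h c (by simp [hc])) hx)

theorem hasCopy_copyMask {a s S : ℕ} (h : copyMask a s = some S) : HasCopy (cells S) := by
  unfold copyMask at h
  split at h
  · next hall =>
    obtain rfl := Option.some.inj h
    refine ⟨cellOf a, s.testBit 0, s.testBit 1, s.testBit 2, fun c hc => ?_⟩
    exact mem_cells_foldr _ (by simpa using hall) (List.mem_map.mpr ⟨c, hc, rfl⟩)
  · cases h

/-- A leaf: Maker completes the copy by claiming `m`. -/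
def leafEntry (a s m : ℕ) : Option (ℕ × ℕ) :=
  match copyMask a s with
  | none => none
  | some S => some (clear S m, S ||| bit m)

theorem Good.leaf {a s m : ℕ} {e : ℕ × ℕ} (h : leafEntry a s m = some e) : Good e := by
  unfold leafEntry at h
  split at h
  · cases h
  · next S hS =>
    obtain rfl := Option.some.inj h
    refine ⟨fun x hx => ?_, fun B hB => .now (cellOf m) ?_ ((hasCopy_copyMask hS).mono ?_)⟩
    · obtain ⟨i, hi, rfl⟩ := mem_cells.mp hx
      rw [testBit_clear] at hi
      simp_all
    · simp only [Finset.mem_union, cellOf_mem_cells, testBit_clear, not_or]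
      exact ⟨by simp, Finset.disjoint_left.mp hB (by simp [bit])⟩
    · intro x hx
      obtain ⟨i, hi, rfl⟩ := mem_cells.mp hx
      by_cases him : m = i
      · subst him; simp
      · exact Finset.mem_insert_of_mem (by simp [testBit_clear, hi, him])

/-- Union of Maker sets, union of zones and intersection of zones of a nonempty list. -/
def sums : ℕ × ℕ → List (ℕ × ℕ) → ℕ × ℕ × ℕ
  | e, [] => (e.1, e.2, e.2)
  | e, f :: l => (e.1 ||| (sums f l).1, e.2 ||| (sums f l).2.1, e.2 &&& (sums f l).2.2)

theorem sums_spec : ∀ (e : ℕ × ℕ) (l : List (ℕ × ℕ)) (i : ℕ),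
    ((∀ f ∈ e :: l, f.1.testBit i = true → (sums e l).1.testBit i = true) ∧
     (∀ f ∈ e :: l, f.2.testBit i = true → (sums e l).2.1.testBit i = true)) ∧
     ((sums e l).2.2.testBit i = false → ∃ f ∈ e :: l, f.2.testBit i = false)
  | e, [], i => by simp [sums]
  | e, f :: l, i => by
    obtain ⟨⟨h1, h2⟩, h3⟩ := sums_spec f l i
    refine ⟨⟨fun g hg hi => ?_, fun g hg hi => ?_⟩, fun h => ?_⟩
    · simp only [sums, Nat.testBit_lor, Bool.or_eq_true]
      rcases List.mem_cons.mp hg with rfl | hg
      · exact .inl hi
      · exact .inr (h1 g hg hi)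
    · simp only [sums, Nat.testBit_lor, Bool.or_eq_true]
      rcases List.mem_cons.mp hg with rfl | hg
      · exact .inl hi
      · exact .inr (h2 g hg hi)
    · simp only [sums, Nat.testBit_land, Bool.and_eq_false_iff] at h
      rcases h with h | h
      · exact ⟨e, by simp, h⟩
      · obtain ⟨g, hg, hgi⟩ := h3 h
        exact ⟨g, List.mem_cons_of_mem _ hg, hgi⟩

/-- An inner node: Maker claims `m`; each reply of Breaker misses the zone of some child. -/
def innerEntry (m : ℕ) : List (ℕ × ℕ) → Option (ℕ × ℕ)
  | [] => none
  | e :: l =>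
    let r := sums e l
    let M' := r.1 ||| bit m
    if r.2.2 ||| M' = M' then some (clear r.1 m, r.2.1 ||| M') else none

theorem Good.inner {m : ℕ} {l : List (ℕ × ℕ)} {e : ℕ × ℕ} (hl : ∀ f ∈ l, Good f)
    (h : innerEntry m l = some e) : Good e := by
  cases l with
  | nil => cases h
  | cons f l =>
    simp only [innerEntry] at h
    split at h
    · next hI =>
      obtain rfl := Option.some.inj h
      refine ⟨fun x hx => ?_, fun B hB => ?_⟩
      · obtain ⟨i, hi, rfl⟩ := mem_cells.mp hx
        rw [testBit_clear, Bool.and_eq_true] at hi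
        simp [hi.1]
      · have hMm : cells ((sums f l).1 ||| bit m) =
            insert (cellOf m) (cells (clear (sums f l).1 m)) := by
          ext x
          simp only [Finset.mem_insert, mem_cells, Nat.testBit_lor, testBit_clear, bit,
            Nat.testBit_two_pow]
          constructor
          · rintro ⟨i, hi, rfl⟩
            by_cases him : m = i
            · exact .inl (by rw [him])
            · exact .inr ⟨i, by simpa [him] using hi, rfl⟩
          · rintro (rfl | ⟨i, hi, rfl⟩)
            · exact ⟨m, by simp, rfl⟩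
            · exact ⟨i, by simp_all, rfl⟩
        refine .step (cellOf m) ?_ (fun b hb => ?_)
        · simp only [Finset.mem_union, cellOf_mem_cells, testBit_clear, not_or]
          exact ⟨by simp, Finset.disjoint_left.mp hB (by simp [bit])⟩
        rw [Finset.mem_insert, Finset.mem_union, ← or_assoc, ← Finset.mem_insert, ← hMm,
          not_or] at hb
        obtain ⟨g, hg, hgb⟩ : ∃ g ∈ f :: l, b ∉ cells g.2 := by
          by_cases hb' : ∃ i, cellOf i = b
          · obtain ⟨i, rfl⟩ := hb'
            have hI' : (sums f l).2.2.testBit i = false := by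
              by_contra hne
              exact hb.1 (cells_subset hI (by simpa using hne))
            obtain ⟨g, hg, hgi⟩ := (sums_spec f l i).2 hI'
            exact ⟨g, hg, by simp [hgi]⟩
          · exact ⟨f, List.mem_cons_self, fun h => hb'
              (mem_cells.mp h |>.imp fun i hi => hi.2)⟩
        have hU : cells g.2 ⊆ cells ((sums f l).2.1 ||| ((sums f l).1 ||| bit m)) := by
          intro x hx
          obtain ⟨i, hi, rfl⟩ := mem_cells.mp hx
          simp [(sums_spec f l i).1.2 g hg hi]
        refine ((hl g hg).2 (insert b B) ?_).mono ?_ subset_rfl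
        · rw [Finset.disjoint_insert_right]
          exact ⟨hgb, Finset.disjoint_of_subset_left hU hB⟩
        · rw [← hMm]
          intro x hx
          obtain ⟨i, hi, rfl⟩ := mem_cells.mp hx
          simp [(sums_spec f l i).1.1 g hg hi]
    · cases h

end Vale.Agent.P062
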