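import Vale.Agent.P062.Cert

/-!
# Evaluation of certificates by the kernel

The entries of all nodes are given in advance, packed in natural numbers; each segment of the list
of nodes is then verified independently of the others.
-/

namespace Vale.Agent.P062

/-- Number of bits of a board set. -/
def setBits : ℕ := 361

/-- Number of entries in one packed block. -/
def blockLen : ℕ := 32

/-- The entry packed in a number below `2 ^ (2 * setBits)`. -/
noncomputable def unpack (x : ℕ) : ℕ × ℕ := (x % 2 ^ setBits, x / 2 ^ setBits)

/-- The `k`-th entry, given the packed blocks. -/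
noncomputable def fetch (blocks : ℕ → ℕ) (k : ℕ) : ℕ × ℕ :=
  unpack ((blocks (k / blockLen) >>> (k % blockLen * (2 * setBits))) % 2 ^ (2 * setBits))

/-- Base of the packed digits. -/
def base : ℕ := 1048576

/-- The child entries named by the digits of `n`; each child precedes node `i`. -/
noncomputable def children (get : ℕ → ℕ × ℕ) (i fuel : ℕ) : ℕ → Option (List (ℕ × ℕ)) :=
  Nat.rec (motive := fun _ => ℕ → Option (List (ℕ × ℕ))) (fun _ => none)
    (fun _ rec n => cond (Nat.beq n 0) (some [])
      (cond (Nat.ble (n % base - 1 + 1) i)
        ((rec (n / base)).map (List.cons (get (n % base - 1)))) none))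
    fuel

theorem children_good {get : ℕ → ℕ × ℕ} {i : ℕ} (hi : ∀ j < i, Good (get j)) :
    ∀ (fuel n : ℕ) {l : List (ℕ × ℕ)}, children get i fuel n = some l → ∀ e ∈ l, Good e
  | 0, _, _, h => nomatch h
  | f + 1, n, l, h => by
    change cond (Nat.beq n 0) (some [])
      (cond (Nat.ble (n % base - 1 + 1) i)
        ((children get i f (n / base)).map (List.cons (get (n % base - 1)))) none) = some l at h
    cases h0 : Nat.beq n 0
    · rw [h0, cond_false] at h
      cases h1 : Nat.ble (n % base - 1 + 1) i
      · rw [h1, cond_false] at h
        cases h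
      · rw [h1, cond_true] at h
        obtain ⟨l', hl', rfl⟩ := Option.map_eq_some_iff.mp h
        intro e he
        rcases List.mem_cons.mp he with rfl | he
        · exact hi _ (Nat.le_of_ble_eq_true h1)
        · exact children_good hi f _ hl' e he
    · rw [h0, cond_true] at h
      obtain rfl := Option.some.inj h
      simp

/-- The entry of a packed node. An even number packs a leaf, `2 * ((a * 8 + s) * base + m)`;
an odd one packs a move followed by the children. -/
noncomputable def entry (get : ℕ → ℕ × ℕ) (i w : ℕ) : Option (ℕ × ℕ) :=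
  cond (Nat.beq (w % 2) 0) (leafEntry (w / 2 / base / 8) (w / 2 / base % 8) (w / 2 % base))
    ((children get i 300 (w / 2 / base)).bind (innerEntry (w / 2 % base)))

theorem Good.entry {get : ℕ → ℕ × ℕ} {i w : ℕ} {e : ℕ × ℕ} (hi : ∀ j < i, Good (get j))
    (h : entry get i w = some e) : Good e := by
  unfold P062.entry at h
  cases h0 : Nat.beq (w % 2) 0
  · rw [h0, cond_false] at h
    obtain ⟨l, hl, he⟩ := Option.bind_eq_some_iff.mp h
    exact Good.inner (children_good hi _ _ hl) he
  · rw [h0, cond_true] at h
    exact Good.leaf h

/-- Whether a computed entry is the recorded one. -/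
noncomputable def matches' (o : Option (ℕ × ℕ)) (e : ℕ × ℕ) : Bool :=
  Option.rec false (fun p => Nat.beq p.1 e.1 && Nat.beq p.2 e.2) o

/-- Whether the nodes `ws`, numbered from `i` on, have the recorded entries. -/
noncomputable def verify (get : ℕ → ℕ × ℕ) (ws : List ℕ) : ℕ → Bool :=
  List.rec (motive := fun _ => ℕ → Bool) (fun _ => true)
    (fun w _ rec i => matches' (entry get i w) (get i) && rec (i + 1)) ws

/-- All entries before `n` are good. -/
def GoodBelow (get : ℕ → ℕ × ℕ) (n : ℕ) : Prop :=
  ∀ j < n, Good (get j)

theorem goodBelow_zero (get : ℕ → ℕ × ℕ) : GoodBelow get 0 :=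
  fun _ h => absurd h (Nat.not_lt_zero _)

theorem verify_sound {get : ℕ → ℕ × ℕ} : ∀ (ws : List ℕ) (i j : ℕ), j = i + ws.length →
    verify get ws i = true → GoodBelow get i → GoodBelow get j
  | [], i, j, hj, _, hi => by simpa [hj] using hi
  | w :: ws, i, j, hj, h, hi => by
    change (matches' (entry get i w) (get i) && verify get ws (i + 1)) = true at h
    rw [Bool.and_eq_true] at h
    refine verify_sound ws (i + 1) j (by simp only [List.length_cons] at hj; omega) h.2 ?_
    intro k hk
    rcases Nat.lt_succ_iff_lt_or_eq.mp hk with hk | rfl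
    · exact hi k hk
    · obtain ⟨he, -⟩ := h
      cases he' : entry get k w with
      | none => rw [he'] at he; cases he
      | some p =>
        rw [he'] at he
        change (Nat.beq p.1 (get k).1 && Nat.beq p.2 (get k).2) = true at he
        rw [Bool.and_eq_true] at he
        have : p = get k := Prod.ext (Nat.eq_of_beq_eq_true he.1) (Nat.eq_of_beq_eq_true he.2)
        exact this ▸ Good.entry hi he'

/-- A verified entry whose Maker set lies in `M` and whose zone avoids Breaker wins. -/
theorem GoodBelow.wins {get : ℕ → ℕ × ℕ} {n k M U : ℕ} (h : GoodBelow get n) (hk : k < n)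
    (hM : (get k).1 ||| M = M) (hU : (get k).2 ||| U = U) {B : Finset Cell}
    (hB : Disjoint (cells U) B) : Wins (cells M) B :=
  ((h k hk).2 B (Finset.disjoint_of_subset_left (cells_subset hU) hB)).mono
    (cells_subset hM) subset_rfl

end Vale.Agent.P062
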