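import Vale.Agent.P062.Game
import Mathlib.Data.List.Range

/-!
# From a winning position to a strategy
-/

namespace Vale.Agent.P062

theorem makerCells_succ (σ : List Cell → Cell) (b : ℕ → Cell) (n : ℕ) :
    makerCells σ b (n + 1) = insert (σ ((List.range n).map b)) (makerCells σ b n) := by
  simp [makerCells, Finset.range_add_one, Finset.image_insert]

theorem breakerCells_succ (b : ℕ → Cell) (n : ℕ) :
    breakerCells b (n + 1) = insert (b n) (breakerCells b n) := by
  simp [breakerCells, Finset.range_add_one, Finset.image_insert]

/-- A winning plan as a tree of moves indexed by Breaker's replies. -/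
inductive Plan : Finset Cell → Finset Cell → Type
  | now {M B : Finset Cell} (m : Cell) (hm : m ∉ M ∪ B) (h : HasCopy (insert m M)) : Plan M B
  | step {M B : Finset Cell} (m : Cell) (hm : m ∉ M ∪ B)
      (h : ∀ b, b ∉ insert m (M ∪ B) → Plan (insert m M) (insert b B)) : Plan M B

theorem Wins.plan {M B : Finset Cell} (h : Wins M B) : Nonempty (Plan M B) := by
  induction h with
  | now m hm hc => exact ⟨.now m hm hc⟩
  | step m hm _ ih => exact ⟨.step m hm fun b hb => (ih b hb).some⟩

/-- The move a plan prescribes after a list of replies. -/
noncomputable def Plan.move : {M B : Finset Cell} → Plan M B → List Cell → Cell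
  | _, _, .now m _ _, _ => m
  | _, _, .step m _ _, [] => m
  | M, B, .step m _ h, b :: bs =>
    if hb : b ∉ insert m (M ∪ B) then (h b hb).move bs else m

theorem Plan.first {M B : Finset Cell} (P : Plan M B) : P.move [] ∉ M ∪ B := by
  cases P with
  | now m hm h => exact hm
  | step m hm h => exact hm

theorem Plan.wins : {M B : Finset Cell} → (P : Plan M B) → ∀ b : ℕ → Cell,
    (∀ i, b i ∉ (M ∪ B) ∪ makerCells P.move b (i + 1) ∪ breakerCells b i) →
    ∃ n, (∀ i < n, P.move ((List.range i).map b) ∉
        (M ∪ B) ∪ makerCells P.move b i ∪ breakerCells b i) ∧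
      HasCopy (M ∪ makerCells P.move b n)
  | M, B, .now m hm h, b, _ => by
    refine ⟨1, fun i hi => ?_, h.mono fun x hx => ?_⟩
    · obtain rfl : i = 0 := by omega
      simpa [Plan.move, makerCells, breakerCells] using hm
    · rcases Finset.mem_insert.mp hx with rfl | hx
      · simp [Plan.move, makerCells]
      · exact Finset.mem_union_left _ hx
  | M, B, .step m hm h, b, hb => by
    have hb0 : b 0 ∉ insert m (M ∪ B) := by
      simpa [makerCells, breakerCells, Plan.move, not_or, and_comm, and_assoc, and_left_comm]
        using hb 0
    have hmove : ∀ i, (Plan.step m hm h).move ((List.range (i + 1)).map b) =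
        (h (b 0) hb0).move ((List.range i).map fun j => b (j + 1)) := fun i => by
      rw [List.range_succ_eq_map, List.map_cons, List.map_map, Plan.move, dif_pos hb0]
      rfl
    have hM : ∀ i, makerCells (Plan.step m hm h).move b (i + 1) =
        insert m (makerCells (h (b 0) hb0).move (fun j => b (j + 1)) i) := fun i => by
      induction i with
      | zero => simp [makerCells, Plan.move]
      | succ i ih =>
        rw [makerCells_succ, ih, makerCells_succ, hmove i, Finset.insert_comm]
    have hB : ∀ i, breakerCells b (i + 1) = insert (b 0) (breakerCells (fun j => b (j + 1)) i) :=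
      fun i => by
        induction i with
        | zero => simp [breakerCells]
        | succ i ih => rw [breakerCells_succ, ih, breakerCells_succ, Finset.insert_comm]
    obtain ⟨n, hn, hc⟩ := (h (b 0) hb0).wins (fun j => b (j + 1)) fun i => by
      have := hb (i + 1)
      rw [hM, hB] at this
      intro hx
      refine this ?_
      simp only [Finset.mem_union, Finset.mem_insert] at hx ⊢
      tauto
    refine ⟨n + 1, fun i hi => ?_, hc.mono fun x hx => ?_⟩
    · cases i with
      | zero => simpa [Plan.move, makerCells, breakerCells] using hm
      | succ i =>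
        rw [hM, hB, hmove]
        have := hn i (by omega)
        intro hx
        refine this ?_
        simp only [Finset.mem_union, Finset.mem_insert] at hx ⊢
        tauto
    · rw [hM]
      simp only [Finset.mem_union, Finset.mem_insert] at hx ⊢
      tauto

/-- A winning empty board gives a winning strategy. -/
theorem makerHasWinningStrategy_of_wins (h : Wins ∅ ∅) : MakerHasWinningStrategy := by
  obtain ⟨P⟩ := h.plan
  refine ⟨P.move, fun b hb => ?_⟩
  obtain ⟨n, hn, hc⟩ := P.wins b (by simpa using hb)
  exact ⟨n, by simpa using hn, by simpa using hc⟩

end Vale.Agent.P062
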