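import Vale.Agent.P062.Cert
import Mathlib.Tactic.Linarith

/-!
# Symmetries of the game
-/

namespace Vale.Agent.P062

theorem rot_add (sw p q : Bool) (a b : Cell) : rot sw p q (a + b) = rot sw p q a + rot sw p q b := by
  cases sw <;> cases p <;> cases q <;> ext <;> simp [rot] <;> ring

theorem rot_zero (sw p q : Bool) : rot sw p q 0 = 0 := by
  cases sw <;> cases p <;> cases q <;> rfl

theorem rot_comp (sw p q sw' p' q' : Bool) :
    ∃ sw'' p'' q'' : Bool, ∀ c, rot sw p q (rot sw' p' q' c) = rot sw'' p'' q'' c := by
  cases sw <;> cases sw'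
  · exact ⟨false, xor p p', xor q q', fun c => by
      cases p <;> cases p' <;> cases q <;> cases q' <;> simp [rot]⟩
  · exact ⟨true, xor p p', xor q q', fun c => by
      cases p <;> cases p' <;> cases q <;> cases q' <;> simp [rot]⟩
  · exact ⟨true, xor p q', xor q p', fun c => by
      cases p <;> cases p' <;> cases q <;> cases q' <;> simp [rot]⟩
  · exact ⟨false, xor p q', xor q p', fun c => by
      cases p <;> cases p' <;> cases q <;> cases q' <;> simp [rot]⟩

theorem rot_inverse (sw p q : Bool) :
    ∃ sw' p' q' : Bool, ∀ c, rot sw p q (rot sw' p' q' c) = c := by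
  cases sw
  · exact ⟨false, p, q, fun c => by cases p <;> cases q <;> simp [rot]⟩
  · exact ⟨true, q, p, fun c => by cases p <;> cases q <;> simp [rot]⟩

theorem rot_injective (sw p q : Bool) : Function.Injective (rot sw p q) := by
  cases sw <;> cases p <;> cases q <;> intro a b h <;> simp [rot, Prod.ext_iff] at h <;>
    ext <;> simp [h]

theorem HasCopy.rot {S : Finset Cell} (h : HasCopy S) (sw p q : Bool) :
    HasCopy (S.image (rot sw p q)) := by
  obtain ⟨t, sw', p', q', h⟩ := h
  obtain ⟨a, b, c, hc⟩ := rot_comp sw p q sw' p' q'
  refine ⟨P062.rot sw p q t, a, b, c, fun x hx => Finset.mem_image.mpr ⟨_, h x hx, ?_⟩⟩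
  rw [rot_add, hc]

theorem Wins.rot {M B : Finset Cell} (h : Wins M B) (sw p q : Bool) :
    Wins (M.image (rot sw p q)) (B.image (rot sw p q)) := by
  obtain ⟨a, b', c, hinv⟩ := rot_inverse sw p q
  induction h with
  | @now M B m hm hc =>
    refine .now (P062.rot sw p q m) ?_ ?_
    · rw [← Finset.image_union, (rot_injective sw p q).mem_finset_image]
      exact hm
    · rw [← Finset.image_insert]
      exact hc.rot sw p q
  | @step M B m hm _ ih =>
    refine .step (P062.rot sw p q m) ?_ (fun y hy => ?_)
    · rw [← Finset.image_union, (rot_injective sw p q).mem_finset_image]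
      exact hm
    · obtain ⟨x, rfl⟩ : ∃ x, P062.rot sw p q x = y := ⟨P062.rot a b' c y, hinv y⟩
      rw [← Finset.image_union, ← Finset.image_insert,
        (rot_injective sw p q).mem_finset_image] at hy
      have := ih x hy
      rwa [Finset.image_insert, Finset.image_insert] at this

/-- The cell `b` is avoided, after some symmetry fixing the origin, by the zone of some root. -/
def covers (zones : List ℕ) (b : Cell) : Prop :=
  ∃ sw p q : Bool, ∃ U ∈ zones, rot sw p q b ∉ cells U

theorem not_mem_cells_iff (U : ℕ) (c : Cell) :
    c ∉ cells U ↔ cellOf (indexOf c) ≠ c ∨ U.testBit (indexOf c) = false := by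
  constructor
  · intro h
    by_cases he : cellOf (indexOf c) = c
    · right
      rw [Bool.eq_false_iff]
      exact fun ht => h (mem_cells.mpr ⟨_, ht, he⟩)
    · exact .inl he
  · intro h hc
    obtain ⟨i, hi, rfl⟩ := mem_cells.mp hc
    have hidx : cellOf (indexOf (cellOf i)) = cellOf i → indexOf (cellOf i) = i :=
      fun e => cellOf_injective e
    rcases h with h | h
    · exact h (by
        have : indexOf (cellOf i) = i := by
          simp only [indexOf, cellOf, sub_add_cancel, Int.toNat_natCast, width]
          omega
        rw [this])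
    · have : indexOf (cellOf i) = i := by
        simp only [indexOf, cellOf, sub_add_cancel, Int.toNat_natCast, width]
        omega
      rw [this, hi] at h
      cases h

/-- Boolean test of `covers`. -/
def coversB (zones : List ℕ) (b : Cell) : Bool :=
  [false, true].any fun sw => [false, true].any fun p => [false, true].any fun q =>
    zones.any fun U => !(U.testBit (indexOf (rot sw p q b))) ||
      !(decide (cellOf (indexOf (rot sw p q b)) = rot sw p q b))

theorem coversB_sound {zones : List ℕ} {b : Cell} (h : coversB zones b = true) :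
    covers zones b := by
  simp only [coversB, List.any_eq_true, Bool.or_eq_true, Bool.not_eq_true',
    decide_eq_false_iff_not] at h
  obtain ⟨sw, -, p, -, q, -, U, hU, h⟩ := h
  exact ⟨sw, p, q, U, hU, (not_mem_cells_iff _ _).mpr h.symm⟩

/-- Maker opens at the origin and wins when every reply is covered by a winning zone. -/
theorem wins_empty_of_roots (zones : List ℕ) (hne : zones ≠ [])
    (hsmall : zones.all (fun U => decide (U < 2 ^ 512)) = true)
    (hwin : ∀ U ∈ zones, ∀ B : Finset Cell, Disjoint (cells U) B → Wins {(0, 0)} B)
    (hcov : ((List.range 512).all fun i => decide (cellOf i = (0, 0)) || coversB zones (cellOf i))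
      = true) :
    Wins ∅ ∅ := by
  refine .step (0, 0) (by simp) (fun b hb => ?_)
  have hb0 : b ≠ (0, 0) := by simpa using hb
  have hc : covers zones b := by
    by_cases h : ∃ i < 512, cellOf i = b
    · obtain ⟨i, hi, rfl⟩ := h
      have := List.all_eq_true.mp hcov i (List.mem_range.mpr hi)
      simp only [Bool.or_eq_true, decide_eq_true_eq] at this
      exact coversB_sound (this.resolve_left hb0)
    · obtain ⟨U, hU⟩ := List.exists_mem_of_ne_nil zones hne
      refine ⟨false, false, false, U, hU, ?_⟩
      simp only [P062.rot, Bool.false_eq_true, if_false]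
      intro hmem
      obtain ⟨i, hi, he⟩ := mem_cells.mp hmem
      have hlt : U < 2 ^ 512 := of_decide_eq_true (List.all_eq_true.mp hsmall U hU)
      by_cases hi512 : i < 512
      · exact h ⟨i, hi512, he⟩
      · rw [Nat.testBit_lt_two_pow (hlt.trans_le (Nat.pow_le_pow_right (by norm_num) (by omega)))]
          at hi
        cases hi
  obtain ⟨sw, p, q, U, hU, hnot⟩ := hc
  obtain ⟨a, b', c, hinv⟩ := rot_inverse sw p q
  obtain ⟨a', b'', c', hinv'⟩ := rot_inverse a b' c
  have hw : Wins {(0, 0)} {rot sw p q b} :=
    hwin U hU _ (Finset.disjoint_singleton_right.mpr hnot)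
  have := hw.rot a b' c
  have hback : rot a b' c (rot sw p q b) = b := rot_injective sw p q (hinv _)
  simp only [Finset.image_singleton, hback] at this
  rw [show rot a b' c ((0, 0) : Cell) = (0, 0) from rot_zero a b' c] at this
  simpa using this

end Vale.Agent.P062
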