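import Vale.Agent.P062.Checker
import Vale.Agent.P062.Symm
import Vale.Agent.P062.Strategy

/-!
# From a verified table to the theorem
-/

namespace Vale.Agent.P062

/-- Whether every root is a node below `n` whose Maker cells lie in the opening cell. -/
noncomputable def rootsOk (get : ℕ → ℕ × ℕ) (n : ℕ) (rs : List ℕ) : Bool :=
  List.rec true (fun k _ r => (Nat.ble (k + 1) n && Nat.beq ((get k).1 ||| bit 180) (bit 180)) && r) rs

theorem rootsOk_spec {get : ℕ → ℕ × ℕ} {n : ℕ} : ∀ {rs : List ℕ}, rootsOk get n rs = true →
    ∀ k ∈ rs, k < n ∧ (get k).1 ||| bit 180 = bit 180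
  | [], _, k, hk => by simp at hk
  | a :: rs, h, k, hk => by
    change ((Nat.ble (a + 1) n && Nat.beq ((get a).1 ||| bit 180) (bit 180)) &&
      rootsOk get n rs) = true at h
    simp only [Bool.and_eq_true] at h
    rcases List.mem_cons.mp hk with rfl | hk
    · exact ⟨Nat.le_of_ble_eq_true h.1.1, Nat.eq_of_beq_eq_true h.1.2⟩
    · exact rootsOk_spec h.2 k hk

theorem cells_origin : cells (bit 180) = {(0, 0)} := by
  rw [cells_bit]
  decide

/-- A verified certificate whose roots cover all first replies gives a winning strategy. -/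
theorem makerWins_of_certificate {get : ℕ → ℕ × ℕ} {n : ℕ} (hg : GoodBelow get n) (rs : List ℕ)
    (hne : rs ≠ []) (hok : rootsOk get n rs = true)
    (hsmall : (rs.map fun k => (get k).2).all (fun U => decide (U < 2 ^ 512)) = true)
    (hcov : ((List.range 512).all fun i => decide (cellOf i = (0, 0)) ||
      coversB (rs.map fun k => (get k).2) (cellOf i)) = true) :
    MakerHasWinningStrategy := by
  refine makerHasWinningStrategy_of_wins
    (wins_empty_of_roots (rs.map fun k => (get k).2) (by simpa using hne) hsmall ?_ hcov)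
  intro U hU B hB
  obtain ⟨k, hk, rfl⟩ := List.mem_map.mp hU
  obtain ⟨hkn, hM⟩ := rootsOk_spec hok k hk
  rw [← cells_origin]
  exact hg.wins hkn hM (Nat.or_self _) hB

end Vale.Agent.P062
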