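import Mathlib.Data.Finset.Card
import Mathlib.Data.Finset.Insert
import Mathlib.Data.Finset.Image
import Mathlib.Algebra.Order.Ring.Int
import Mathlib.Data.Set.Finite.Basic
import Mathlib.Data.Finite.Prod

/-!
# The Snaky achievement game on the square board
-/

namespace Vale.Agent.P062

/-- A cell of the board, indexed by its lower-left corner. -/
abbrev Cell : Type := ℤ × ℤ

/-- The six cells of Snaky. -/
def snaky : List Cell := [(0, 0), (1, 0), (2, 0), (3, 0), (3, 1), (4, 1)]

/-- The signed permutation with signs `p`, `q`, exchanging the axes when `sw` is true. -/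
def rot (sw p q : Bool) (c : Cell) : Cell :=
  let u := if sw then (c.2, c.1) else c
  ((if p then -u.1 else u.1), (if q then -u.2 else u.2))

/-- `S` contains an allowed copy of Snaky. -/
def HasCopy (S : Finset Cell) : Prop :=
  ∃ (t : Cell) (sw p q : Bool), ∀ c ∈ snaky, t + rot sw p q c ∈ S

theorem HasCopy.mono {S T : Finset Cell} (h : HasCopy S) (hST : S ⊆ T) : HasCopy T := by
  obtain ⟨t, sw, p, q, h⟩ := h
  exact ⟨t, sw, p, q, fun c hc => hST (h c hc)⟩

/-- From Maker's cells `M` and Breaker's cells `B`, Maker to move, Maker forces a win after
finitely many turns. -/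
inductive Wins : Finset Cell → Finset Cell → Prop
  | now {M B : Finset Cell} (m : Cell) (hm : m ∉ M ∪ B) (h : HasCopy (insert m M)) : Wins M B
  | step {M B : Finset Cell} (m : Cell) (hm : m ∉ M ∪ B)
      (h : ∀ b, b ∉ insert m (M ∪ B) → Wins (insert m M) (insert b B)) : Wins M B

theorem exists_free (S : Finset Cell) : ∃ c, c ∉ S := Infinite.exists_notMem_finset S

theorem exists_free₂ (S : Finset Cell) (c : Cell) :
    ∃ b, b ∉ insert c S := exists_free _

/-- Extra Maker cells and fewer Breaker cells never hurt Maker. -/
theorem Wins.mono {M B : Finset Cell} (h : Wins M B) :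
    ∀ {M' B' : Finset Cell}, M ⊆ M' → B' ⊆ B → Wins M' B' := by
  induction h with
  | @now M B m hm hc =>
    intro M' B' hM hB
    by_cases hmem : m ∈ M'
    · obtain ⟨m', hm'⟩ := exists_free (M' ∪ B')
      refine .now m' hm' (hc.mono ?_)
      intro x hx
      rcases Finset.mem_insert.mp hx with rfl | hx
      · exact Finset.mem_insert_of_mem hmem
      · exact Finset.mem_insert_of_mem (hM hx)
    · refine .now m ?_ (hc.mono (Finset.insert_subset_insert m hM))
      simp only [Finset.mem_union, not_or] at hm ⊢
      exact ⟨hmem, fun h => hm.2 (hB h)⟩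
  | @step M B m hm _ ih =>
    intro M' B' hM hB
    obtain ⟨b₀, hb₀⟩ := exists_free₂ (M ∪ B) m
    by_cases hmem : m ∈ M'
    · obtain ⟨m', hm'⟩ := exists_free (M' ∪ B')
      refine .step m' hm' (fun b hb' => ?_)
      have hsub : insert m M ⊆ insert m' M' := fun x hx => by
        rcases Finset.mem_insert.mp hx with rfl | hx
        · exact Finset.mem_insert_of_mem hmem
        · exact Finset.mem_insert_of_mem (hM hx)
      by_cases hb : b ∈ insert m (M ∪ B)
      · refine ih b₀ hb₀ hsub ?_
        intro x hx
        rcases Finset.mem_insert.mp hx with rfl | hx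
        · rcases Finset.mem_insert.mp hb with rfl | hb
          · exact absurd (Finset.mem_insert_of_mem (Finset.mem_union_left _ hmem)) hb'
          · rcases Finset.mem_union.mp hb with hb | hb
            · exact absurd (Finset.mem_insert_of_mem (Finset.mem_union_left _ (hM hb))) hb'
            · exact Finset.mem_insert_of_mem hb
        · exact Finset.mem_insert_of_mem (hB hx)
      · exact ih b hb hsub (Finset.insert_subset_insert b hB)
    · have hmf : m ∉ M' ∪ B' := by
        simp only [Finset.mem_union, not_or] at hm ⊢
        exact ⟨hmem, fun h => hm.2 (hB h)⟩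
      refine .step m hmf (fun b hb' => ?_)
      by_cases hb : b ∈ insert m (M ∪ B)
      · refine ih b₀ hb₀ (Finset.insert_subset_insert m hM) ?_
        simp only [Finset.mem_insert, Finset.mem_union, not_or] at hb hb'
        intro x hx
        rcases Finset.mem_insert.mp hx with rfl | hx
        · rcases hb with rfl | hb | hb
          · exact absurd rfl hb'.1
          · exact absurd (hM hb) hb'.2.1
          · exact Finset.mem_insert_of_mem hb
        · exact Finset.mem_insert_of_mem (hB hx)
      · exact ih b hb (Finset.insert_subset_insert m hM) (Finset.insert_subset_insert b hB)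

/-- Maker's cells after the moves numbered `0, …, n - 1`, when `σ` maps the list of Breaker's
replies so far to Maker's next cell and `b` is the sequence of replies. -/
def makerCells (σ : List Cell → Cell) (b : ℕ → Cell) (n : ℕ) : Finset Cell :=
  (Finset.range n).image fun i => σ ((List.range i).map b)

/-- Breaker's cells after its moves numbered `0, …, n - 1`. -/
def breakerCells (b : ℕ → Cell) (n : ℕ) : Finset Cell :=
  (Finset.range n).image b

/-- Maker, moving first on the empty board, has a strategy that in every play in which Breaker
always claims unclaimed cells claims unclaimed cells and after finitely many turns owns a copy. -/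
def MakerHasWinningStrategy : Prop :=
  ∃ σ : List Cell → Cell, ∀ b : ℕ → Cell,
    (∀ i, b i ∉ makerCells σ b (i + 1) ∪ breakerCells b i) →
    ∃ n, (∀ i < n, σ ((List.range i).map b) ∉ makerCells σ b i ∪ breakerCells b i) ∧
      HasCopy (makerCells σ b n)

end Vale.Agent.P062
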